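import Mathlib
import Vale.Agent.P074.Defs
import Vale.Agent.P074.Main
import Vale.Agent.P074.Limit

/-!
The stability exponent equals `1/3` and is attained, in every dimension `d ≥ 2`.
-/

open MeasureTheory
open scoped ENNReal NNReal

namespace Vale.Agent.Results.P074.AlphaStarThird

open Vale.Agent.P074

/-- For `d ≥ 2` the largest admissible exponent is `1/3`, so the supremum of admissible exponents
is `1/3`, attained, and `1/2` is not admissible; optimal maps exist for every target, and for
`α > 1/3` the failure holds whatever optimal maps are chosen. -/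
theorem result (d : ℕ) (hd : 2 ≤ d) :
    IsGreatest {α : ℝ | Admissible d α} (1 / 3) ∧ sSup {α : ℝ | Admissible d α} = 1 / 3 ∧
      ¬ Admissible d (1 / 2) ∧
      (∀ K : Set (Sp d), Convex ℝ K → IsCompact K → (interior K).Nonempty →
        ∀ Y : Set (Sp d), IsCompact Y → ∀ μ : Measure (Sp d), InP Y μ → ∃ T, IsOptMap K μ T) ∧
      ∀ α : ℝ, 1 / 3 < α →
        ∃ K : Set (Sp d), Convex ℝ K ∧ IsCompact K ∧ (interior K).Nonempty ∧
          ∃ Y : Set (Sp d), Y.Nonempty ∧ IsCompact Y ∧ ∀ C : ℝ≥0, ∃ μ ν : Measure (Sp d),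
            InP Y μ ∧ InP Y ν ∧ (∃ T, IsOptMap K μ T) ∧ (∃ T', IsOptMap K ν T') ∧
            ∀ T T', IsOptMap K μ T → IsOptMap K ν T' →
              (C : ℝ≥0∞) * W2 μ ν ^ α < L2dist K T T' := by
  have hG : IsGreatest {α : ℝ | Admissible d α} (1 / 3) :=
    ⟨Limit.admissible_third (by omega), fun α h => admissible_le hd h⟩
  haveI : NeZero d := ⟨by omega⟩
  exact ⟨hG, hG.csSup_eq, fun h => absurd (admissible_le hd h) (by norm_num),
    fun K hconv hK hint Y hY μ hμ => Limit.exists_optMap hK hconv hint hY hμ,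
    fun α hα => fails hd hα⟩

end Vale.Agent.Results.P074.AlphaStarThird
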